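import Vale.Agent.P232.Phase1.Cover.Check

/-!
# P232 phase 1: the integer checker in the slab range

As the checker of the cover, with the constant `1` as an extra tangent, and boxes on which every
slice area lies between `1/π` and `1 - 1/π`.
-/

open MeasureTheory Set Filter
open scoped Real Topology

noncomputable section

namespace Vale.Agent.P232.Phase1.Slab

open Cover

def tangentS (L : Leaf) : Bool :=
  tangentB L || (decide (0 ≤ L.al) && decide (unitS ≤ L.be))

def leafS (B : Box) (L : Leaf) : Bool := leafCore B L && tangentS L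

def treeS : Tree → Box → Bool
  | .empty, B => decide (B.v1 < B.a0) || decide (B.b1 < B.v0) ||
      (decide (20861 ≤ B.a0) && decide (B.b1 ≤ unitS - 20861))
  | .leaf L, B => leafS B L
  | .split ax m l r, B =>
    if ax = 0 then treeS l { B with v1 := m } && treeS r { B with v0 := m }
    else if ax = 1 then treeS l { B with a1 := m } && treeS r { B with a0 := m }
    else treeS l { B with b1 := m } && treeS r { B with b0 := m }

theorem leafS_sound {B : Box} {L : Leaf} (h : leafS B L = true) {V a b p : ℝ}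
    (hS : Setting a b V p) (hm : B.Mem V a b) (hV : V ≤ 1 / 2) : candidate V ≤ 2 * p := by
  simp only [leafS, tangentS, Bool.and_eq_true, Bool.or_eq_true, decide_eq_true_eq] at h
  obtain ⟨hc, h⟩ := h
  have hl := leafCore_lin hc hS hm
  have h0 : 0 ≤ V := hS.a_nonneg.trans hS.a_le
  rcases h with ht | ⟨hal, hbe⟩
  · have := tangent_real ht h0 hV
    linarith
  · have h1' : 1 ≤ toR L.be := toR_unit ▸ toR_le.2 hbe
    have h2' := mul_nonneg (toR_nonneg hal) h0
    exact (min_le_right _ _).trans (by linarith)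

/-- The slab calibration, when all slice areas lie between `1/π` and `1 - 1/π`. -/
theorem slab_sound {a b V p : ℝ} (hS : Setting a b V p) (ha : 1 / π ≤ a) (hb : b ≤ 1 - 1 / π) :
    candidate V ≤ 2 * p := by
  have h := hS.master 0 1 0 (fun _ => 1) (fun _ => 0) le_rfl continuous_const continuous_const
    (fun _ => zero_le_one) (fun _ => le_rfl) (fun _ => by norm_num)
    (fun A hA => by
      simp only [zero_mul, zero_add, one_mul]
      refine Real.one_le_sqrt.2 ?_
      have h1 : π * (1 / π) = 1 := by field_simp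
      have h2 := mul_le_mul_of_nonneg_left
        (le_min (ha.trans hA.1) (show 1 / π ≤ 1 - A by linarith [hA.2, hb])) Real.pi_pos.le
      linarith)
    (fun A _ _ _ => by simp)
  simp at h
  exact (min_le_right _ _).trans (by linarith)

theorem treeS_sound : ∀ (T : Tree) (B : Box), treeS T B = true → ∀ {V a b p : ℝ},
    Setting a b V p → B.Mem V a b → V ≤ 1 / 2 → candidate V ≤ 2 * p
  | .empty, B, h, V, a, b, p, hS, hm, _ => by
    obtain ⟨⟨hv0, hv1⟩, ⟨ha0, _⟩, ⟨_, hb1⟩⟩ := hm
    simp only [treeS, Bool.or_eq_true, Bool.and_eq_true, decide_eq_true_eq] at h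
    rcases h with (h | h) | ⟨h, h'⟩
    · exact absurd (toR_lt.2 h) (not_lt.2 (ha0.trans (hS.a_le.trans hv1)))
    · exact absurd (toR_lt.2 h) (not_lt.2 ((hv0.trans hS.le_b).trans hb1))
    · refine slab_sound hS (q_hi.trans ((toR_le.2 h).trans ha0)) ?_
      have h2 : toR B.b1 ≤ 1 - toR 20861 := by
        refine (toR_le.2 h').trans (le_of_eq ?_)
        norm_num [toR]
      linarith [q_hi]
  | .leaf _, _, h, _, _, _, _, hS, hm, hV => leafS_sound h hS hm hV
  | .split ax m l r, B, h, V, a, b, p, hS, hm, hV => by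
    obtain ⟨hv, ha, hb⟩ := hm
    simp only [treeS] at h
    split_ifs at h <;> simp only [Bool.and_eq_true] at h
    · rcases le_total V (toR m) with e | e
      · exact treeS_sound l _ h.1 hS ⟨⟨hv.1, e⟩, ha, hb⟩ hV
      · exact treeS_sound r _ h.2 hS ⟨⟨e, hv.2⟩, ha, hb⟩ hV
    · rcases le_total a (toR m) with e | e
      · exact treeS_sound l _ h.1 hS ⟨hv, ⟨ha.1, e⟩, hb⟩ hV
      · exact treeS_sound r _ h.2 hS ⟨hv, ⟨e, ha.2⟩, hb⟩ hV
    · rcases le_total b (toR m) with e | e
      · exact treeS_sound l _ h.1 hS ⟨hv, ha, hb.1, e⟩ hV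
      · exact treeS_sound r _ h.2 hS ⟨hv, ha, e, hb.2⟩ hV

end Vale.Agent.P232.Phase1.Slab
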